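import Vale.Agent.Lib.P310U.Final

/-!
P310, Q1: every deterministic Turing machine that decides `k`-dimensional Weisfeiler-Leman
equivalence has worst-case running time `T_A(n) = n ^ Ω(k)` on pairs of graphs with `n` vertices
each; no exponent `g(k) = o(k)` is possible.
-/

open Filter Topology Asymptotics Vale.Agent.P310U

/-- First part (`T_A(n) = n ^ Ω(k)` for every algorithm `A`): there is `ε > 0` such that for every
`k ≥ 2`, every machine `A` deciding `≡_k` and every bound `T` for its running time (in particular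
`T = T_A`) one has `n ^ (ε k) ≤ T n` for all large `n`.
Second part: there is no `g` with `g(k) / k → 0` such that for every `k ≥ 2` some machine `A`
decides `≡_k` in time `O(n ^ g(k))`. -/
theorem Vale.Agent.Results.P310.DecisionTime.result :
    (∃ ε : ℝ, 0 < ε ∧ ∀ k ≥ 2, ∀ (A : TM) (T : ℕ → ℕ), Decides A k T →
      ∀ᶠ n : ℕ in atTop, (n : ℝ) ^ (ε * k) ≤ T n) ∧
    ¬ ∃ g : ℕ → ℝ, Tendsto (fun k : ℕ => g k / k) atTop (𝓝 0) ∧
      ∀ k ≥ 2, ∃ (A : TM) (T : ℕ → ℕ), Decides A k T ∧
        (fun n => (T n : ℝ)) =O[atTop] fun n : ℕ => (n : ℝ) ^ g k :=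
  ⟨⟨1 / 10, by norm_num, fun _ hk _ _ h => lower h hk⟩, fun ⟨_, hg, h⟩ => no_small hg h⟩
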