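import Vale.Agent.Lib.P310T.Final

/-!
P310, Q1: every multitape Turing machine that decides `k`-dimensional Weisfeiler-Leman equivalence
has worst-case running time `n ^ Ω(k)` on pairs of graphs with `n` vertices each.
-/

open Vale.Agent.P310T

/-- Part 1: for every `k ≥ 2` and every machine deciding `≡_k` the worst-case running time is at
least `n ^ (k / 9)` for all large `n`.  Part 2: for `k ≥ 16` it is at least `c * n ^ ((k - 1) / 6)`
for all large `n`.  Part 3: if `g k = o(k)`, then for all large `k` no machine deciding `≡_k` runs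
in time `O(n ^ g k)`; its running time even exceeds every `C * n ^ g k` for all large `n`. -/
theorem Vale.Agent.Results.P310.MultitapeTime.result :
    (∀ k ≥ 2, ∀ M : Machine, Decides M k →
      ∃ n₀ : ℕ, ∀ n ≥ n₀, (n : ℝ) ^ ((k : ℝ) / 9) ≤ runningTime M n) ∧
    (∀ k ≥ 16, ∀ M : Machine, Decides M k →
      ∃ c > (0 : ℝ), ∃ n₀ : ℕ, ∀ n ≥ n₀, c * (n : ℝ) ^ (((k : ℝ) - 1) / 6) ≤ runningTime M n) ∧
    ∀ g : ℕ → ℝ, (∀ ε > (0 : ℝ), ∃ K : ℕ, ∀ k ≥ K, g k ≤ ε * k) →
      ∃ k₀ : ℕ, ∀ k ≥ k₀, ∀ M : Machine, Decides M k →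
        ∀ C : ℝ, ∃ n₀ : ℕ, ∀ n ≥ n₀, C * (n : ℝ) ^ g k < runningTime M n :=
  ⟨fun _ hk _ hM => lower_all hM hk, fun _ hk _ hM => lower_large hM hk, fun _ hg => no_small hg⟩
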