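import Vale.Agent.Lib.P310.Final

/-!
P310, Q1: every deterministic machine that decides `k`-dimensional Weisfeiler-Leman equivalence
needs time `n ^ Ω(k)` on pairs of graphs with `n` vertices each.
-/

open Filter Asymptotics Vale.Agent.P310

/-- First part: for every `k ≥ 2` the running time is at least `c * n ^ (k / 8)` for all large `n`.
Second part: for `k ≥ 16` it is at least `c * n ^ ((k - 1) / 6)` for all large `n`.
Third part: there is no function `g` with `g k = o(k)` such that for every `k ≥ 2` some machine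
decides `≡_k` in time `O(n ^ g k)`. -/
theorem Vale.Agent.Results.P310.TimeLowerBound.result :
    (∀ k : ℕ, 2 ≤ k → ∀ (A : Turing.TM2ComputableAux Bool Bool) (T : ℕ → ℕ), DecidesIn k A T →
      ∃ c : ℝ, 0 < c ∧ ∀ᶠ n : ℕ in atTop, c * (n : ℝ) ^ ((k : ℝ) / 8) ≤ (T n : ℝ)) ∧
    (∀ k : ℕ, 16 ≤ k → ∀ (A : Turing.TM2ComputableAux Bool Bool) (T : ℕ → ℕ), DecidesIn k A T →
      ∃ c : ℝ, 0 < c ∧ ∀ᶠ n : ℕ in atTop, c * (n : ℝ) ^ (((k : ℝ) - 1) / 6) ≤ (T n : ℝ)) ∧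
    ¬ ∃ g : ℕ → ℝ, g =o[atTop] (fun k : ℕ => (k : ℝ)) ∧ ∀ k : ℕ, 2 ≤ k →
      ∃ (A : Turing.TM2ComputableAux Bool Bool) (T : ℕ → ℕ), DecidesIn k A T ∧
        (fun n : ℕ => (T n : ℝ)) =O[atTop] (fun n : ℕ => (n : ℝ) ^ g k) := by
  refine ⟨fun k hk A T hA => uniform_lower hk A T hA, fun k hk A T hA => main_lower hk A T hA, ?_⟩
  rintro ⟨g, hg, h⟩
  exact no_small hg h
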